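import Vale.Agent.P237.Quant.TailData.N56.tailN56P3Base

/-!
Tail calibration tailN56P3 in dimension 56. A part of the intervals. Generated data, checked by the kernel.
-/

set_option maxRecDepth 100000
set_option linter.all false

namespace Vale.Agent.P237.Quant.TailData

open TailCert


/-- An interval. -/
noncomputable def tailN56P3I143 : Ival :=
  Decode.ival 0x80000001341c00002000000400000009a0e03f84a74c7f094e9842b02f02edfd778697fe9f2fc00d8d4e50bcf0c74852a0b600000fd6882ce04fb7802078c6fd7d140000000000000000f6b0df6b0df6b0b20000000000000000000000000000000000000400000000002003fc89a017f210d8344007470000000260ea60004000000800000012b1767f094e9809ab62c40000000000000000000000004b165cd24473e81556d64e2b68673326dbf44216d00000000003e7f95f70f1e000002efb6b031134829080000000000dcddf763a560000003b6468dc824fa21200011e10ce54bfb02861e20771f5e4fcefff4d01d3880000080000000000ae0fb406a59b2201aef38023940000008f6aa801000002000000463575356c5880f53de0000000000000000000015a2e0a1f3f5acd7667946ffb05695b2985b88000001d3b3c90a069c80069dc00c19fe9f7120000001f4230789cd7500011259c6b29b7640000260f450046b9287ef8416c7c3cdfd744dc8f00000100000000001301bf2df874415dcc01e003f780000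219ff80800020000085a261ea7bc107b30000000000000000010f5cf8d68dde6a86c59dae138ca179b7a002376d8f2e3e8bb47817a5ddfaae85e100041b41c3a1eccc2019ce798f13a79a640cbd2683c357d5b0c30a0b275152598cc000001000000000010c16aa230994d06de13d003888000020d5cc0800020000083561041ecc0e08a80000000000000000bec9d751654547f1743d2d3bc19c6134089723bc87c57f9fe93e414519b4cc6002c269350282caa817b0b544442317e025563eb050e7c4fc1918438051678af00000080000000000800b665cf0416afd05da801b6c0000105cfc040001000004171741c11504e20000000000000000003e8ff27a4c09bb005f21c1c4e1b1fa76053058e8f4fadc37f7167697e73563d801ad7ed89583a3140965246af6ad73e00beac0e54d518602064fd12e4ef4ffc400000400000000004005b873fd2ab73f86b6000db600000819f90200008000020000009c40000000000000000000000000000000000000000000000000000000048c1e9db1af928bfea5070a4c13ce0402fd7d471da5e63a00000000000000000000000000000000000000000000000000000200000000002002cb7994c7c05b0db70006db000003f32d0100004000010000000000009c3f80000000000000000000000000000000000000000000000009908f63563c4c8ffebb4fe5021b576500000000000000000000000000000000000000000000000000000000000000000000000000000000100160e868839719523810036d80120000010008000000100000000a00007f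fe00000000000000003ffd1fdef000221e820024ccfa6a7e8fe12d2a002c3000002401000000080000000bfff1ffe00000000000000000fff47f7bc000887a08008ed4da09ac1fa2a87800ad400000de04000000200000002fff07ff000000000000000003ffd1fdef000221e8200230c5539ba8f0c4668002b5000004981000000080000000bff81ff960000000000000000fff47f7bc000887a08008b37752ed41f0b551000ad4000023804000000200000002ffcb7f7c80000000000000003ffd1fdef000221e82002351cf81989e318e24002b5000013381000000080000000bfbe5f6700000000000000000fff47f7bc000887a08008ece46d82356f0007000ad4000071204000000200000002fb387c1200000000000000003ffd1fdef000221e8200230a84f5dcf55ce53a002b500002aa01000000080000000be091d53e0000000000000000fff47f7bc000887a080088796270ddeb0c3ac800ad4000200004000000200000000ea9f7fffc000231020aef5e1cb8940001b52024e2003e03701fd1a94a20000a6a6680d03738800f9bf007c002e0100418b62c0cfabf0c2a07dfffffffff9672610207ffffef00a7d651c08100000097e6de7658107fffff9dffc96b61840bd71ecd8f82c73081fdeb9ada043abab1c0fe00c0000097ff48115cff9015811a8066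

/-- A part of the intervals. -/
noncomputable def tailN56P3L28 : List Ival :=
  [tailN56P3I143]

theorem tailN56P3L28_ok : tailN56P3Base.partUsed tailN56P3Used tailN56P3L28 = true := by
  decide +kernel

end Vale.Agent.P237.Quant.TailData
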